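import Crest.Agent.N207.S.I1.Bar

/-!
Row 207 (S0320), block I1 (a), (b): lower and upper barriers for `W = w - x` on `x ≤ y (T - t)`.
-/

set_option autoImplicit false

open Set

namespace Crest.Agent.N207.S.I1

open MP

variable {e t0 t1 xs T y : ℝ} {w wt k kt : ℕ → ℝ → ℝ → ℝ}

theorem reg_sub (hy : 0 < y) (hxs : y * (T - t0) ≤ xs) :
    Reg (fun _ => 0) (fun t => y * (T - t)) t0 t1 ⊆ Icc t0 t1 ×ˢ Icc 0 xs := by
  rintro ⟨t, x⟩ ⟨a, b, c, d⟩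
  refine ⟨⟨a, b⟩, c, ?_⟩
  simp only at a d ⊢
  nlinarith

theorem le_xs (hy : 0 < y) (hxs : y * (T - t0) ≤ xs) {t x : ℝ} (a : t0 ≤ t)
    (d : x ≤ y * (T - t)) : x ≤ xs := by nlinarith

theorem lt_xs (hy : 0 < y) (hxs : y * (T - t0) ≤ xs) {t x : ℝ} (a : t0 ≤ t)
    (d : x < y * (T - t)) : x < xs := by nlinarith

theorem hasDeriv_tau3 (c T t : ℝ) :
    HasDerivAt (fun s => c * (T - s) ^ 3) (-(3 * c * (T - t) ^ 2)) t := by
  have := (((hasDerivAt_id t).const_sub T).pow 3).const_mul c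
  refine this.congr_deriv ?_
  simp only [id, Nat.cast_ofNat]; ring

/-- (a), strict form. -/
theorem lowW_lt (h : XSol e t0 t1 xs w wt k kt) (he : 0 ≤ e) (hT : t1 < T) (hy : 0 < y)
    (hxs : y * (T - t0) ≤ xs) {c : ℝ} (hc : 0 < c)
    (hz : ∀ t x, t ∈ Icc t0 t1 → 0 ≤ x → x ≤ y * (T - t) → 0 ≤ 1 - x * k 0 t x)
    (h0 : ∀ x, 0 ≤ x → x ≤ y * (T - t0) → c * (T - t0) ^ 3 < w 0 t0 x - x)
    (hr : ∀ t, t ∈ Icc t0 t1 → c * (T - t) ^ 3 < w 0 t (y * (T - t)) - y * (T - t)) :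
    ∀ t x, t ∈ Icc t0 t1 → 0 ≤ x → x ≤ y * (T - t) → c * (T - t) ^ 3 < w 0 t x - x := by
  have main := mp_family_left (ι := Unit) (r := fun t => y * (T - t)) (a := 0) (t0 := t0)
    (t1 := t1) (by fun_prop) (fun t _ b => mul_pos hy (by linarith))
    (fun _ t x => c * (T - t) ^ 3 - (w 0 t x - x))
    (fun _ t x => -(3 * c * (T - t) ^ 2) - wt 0 t x)
    (fun _ t x => -(w 1 t x - 1)) (fun _ t x => -w 2 t x) ?_ ?_ ?_ ?_ ?_ ?_ ?_ ?_ ?_
  · intro t x ht a b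
    linarith [main () t x ht.1 ht.2 a b]
  · intro _
    exact ContinuousOn.sub (by fun_prop)
      (((h.jw.cu 0).mono (reg_sub hy hxs)).sub continuousOn_snd)
  · intro _ t x a b c d
    exact (hasDeriv_tau3 _ T t).hasDerivWithinAt.sub
      ((jet_dt h.jw 0 a b c (le_xs hy hxs a.le d.le)).sub_const x)
  · intro _ t x a b c d
    exact ((jet_dx h.jw 0 a.le b c (lt_xs hy hxs a.le d)).sub (hasDerivAt_id x)).const_sub _
  · intro _ t a b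
    have h1 : 0 ≤ xs := le_xs hy hxs a.le (mul_pos hy (by linarith)).le
    exact (((h.jw.dx 0 t 0 ⟨a.le, b⟩ ⟨le_rfl, h1⟩).mono
      (Icc_subset_Icc le_rfl (le_xs hy hxs a.le le_rfl))).sub
        (hasDerivWithinAt_id 0 _)).const_sub _
  · intro _ t x a b c d
    exact ((jet_dx h.jw 1 a.le b c (lt_xs hy hxs a.le d)).sub_const 1).neg
  · intro _ x a b
    linarith [h0 x a b]
  · intro _ t x a b u d _ e0 e1 e2 e3
    have hx : x ∈ Icc 0 xs := ⟨u.le, le_xs hy hxs a.le d.le⟩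
    have hw := h.pos t x ⟨a.le, b⟩ hx
    have hz' := hz t x ⟨a.le, b⟩ u.le d.le
    rw [h.eqW t x ⟨a.le, b⟩ hx, rhsW] at e1
    have p1 : w 1 t x = 1 := by linarith
    have hτ : 0 < T - t := by linarith
    have q1 : 0 < c * (T - t) ^ 3 := by positivity
    have q2 : 0 < 3 * c * (T - t) ^ 2 := by positivity
    rw [p1] at e1
    have q3 : x / w 0 t x ≤ 1 := (div_le_one hw).2 (by linarith)
    have q4 : 0 ≤ 2 * e * (1 - x * k 0 t x) := by positivity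
    have q5 : 0 ≤ 2 * e * (1 - x * k 0 t x) * (x * w 2 t x + (1 - x / w 0 t x)) :=
      mul_nonneg q4 (add_nonneg (mul_nonneg u.le (by linarith)) (by linarith))
    have q6 : 2 * e * (1 - x * k 0 t x) * x * (w 2 t x - 1 ^ 2 / w 0 t x) +
        (1 + 2 * e * (1 - x * k 0 t x)) * 1 - 1 =
        2 * e * (1 - x * k 0 t x) * (x * w 2 t x + (1 - x / w 0 t x)) := by ring
    linarith
  · intro _ t a b _ _ e1 e2
    have h1 : 0 ≤ xs := le_xs hy hxs a.le (mul_pos hy (by linarith)).le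
    rw [h.eqW t 0 ⟨a.le, b⟩ ⟨le_rfl, h1⟩, rhsW] at e1
    have hτ : 0 < T - t := by linarith
    have q2 : 0 < 3 * c * (T - t) ^ 2 := by positivity
    nlinarith
  · intro _ t a b _ e0
    linarith [hr t ⟨a.le, b⟩]

/-- (a): `c τ³ ≤ W` on `0 ≤ x ≤ y τ`. -/
theorem lowW (h : XSol e t0 t1 xs w wt k kt) (he : 0 ≤ e) (hT : t1 < T) (hy : 0 < y)
    (hxs : y * (T - t0) ≤ xs) {c : ℝ} (hc : 0 < c)
    (hz : ∀ t x, t ∈ Icc t0 t1 → 0 ≤ x → x ≤ y * (T - t) → 0 ≤ 1 - x * k 0 t x)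
    (h0 : ∀ x, 0 ≤ x → x ≤ y * (T - t0) → c * (T - t0) ^ 3 ≤ w 0 t0 x - x)
    (hr : ∀ t, t ∈ Icc t0 t1 → c * (T - t) ^ 3 ≤ w 0 t (y * (T - t)) - y * (T - t)) :
    ∀ t x, t ∈ Icc t0 t1 → 0 ≤ x → x ≤ y * (T - t) → c * (T - t) ^ 3 ≤ w 0 t x - x := by
  intro t x ht a b
  have hτ : ∀ s, s ≤ t1 → 0 < (T - s) ^ 3 := fun s hs => pow_pos (by linarith) 3
  rw [← le_div_iff₀ (hτ t ht.2)]
  refine le_of_forall_lt_imp_le_of_dense fun c' hc' => ?_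
  rw [le_div_iff₀ (hτ t ht.2)]
  have hm : max c' (c / 2) < c := max_lt hc' (by linarith)
  have := lowW_lt h he hT hy hxs (c := max c' (c / 2)) (lt_max_of_lt_right (by linarith)) hz
    (fun x a b => (mul_lt_mul_of_pos_right hm (hτ t0 (ht.1.trans ht.2))).trans_le (h0 x a b))
    (fun s hs => (mul_lt_mul_of_pos_right hm (hτ s hs.2)).trans_le (hr s hs)) t x ht a b
  exact (mul_le_mul_of_nonneg_right (le_max_left _ _) (hτ t ht.2).le).trans this.le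

theorem alg_b {e K τ p x z w0 w1 w2 : ℝ} (he : 0 ≤ e) (he1 : e ≤ 1 / 100) (hK : 0 < K)
    (hτ : 0 < τ) (hp : 0 < p) (u : 0 < x) (hw : 0 < w0) (z0 : 0 ≤ z) (z2 : z ≤ 2)
    (m7 : x ≤ τ / 200) (e0 : w0 - x = K * τ ^ 3 * p)
    (e1 : -(3 * K * τ ^ 2) * p ≤ 2 * e * z * x * (w2 - w1 ^ 2 / w0) + (1 + 2 * e * z) * w1 - 1)
    (e2 : x * (w1 - 1) = -(1 / 10 * (K * τ ^ 3 * p)))
    (e3 : x ^ 2 * w2 ≤ 1 / 10 * (1 / 10 + 1) * (K * τ ^ 3 * p)) : False := by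
  have m8 : -(3 / 200 * (K * τ ^ 3 * p)) ≤ x * (-(3 * K * τ ^ 2) * p) := by
    have : 0 < K * τ ^ 2 * p := by positivity
    nlinarith [mul_le_mul_of_nonneg_right m7 this.le]
  have hB0 : 0 < K * τ ^ 3 * p := by positivity
  have m6 := mul_le_mul_of_nonneg_left e1 u.le
  have eq : x * (2 * e * z * x * (w2 - w1 ^ 2 / w0) + (1 + 2 * e * z) * w1 - 1) =
      2 * (e * z) * (x ^ 2 * w2) + (1 + 2 * (e * z) - 2 * (e * z) * (x / w0 * (1 + w1))) *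
        (x * (w1 - 1)) + 2 * (e * z) * (x / w0 * (w0 - x)) := by
    field_simp; ring
  rw [eq, e0, e2] at m6
  generalize K * τ ^ 3 * p = B at *
  have q3 : x / w0 ≤ 1 := (div_le_one hw).2 (by linarith)
  have q3' : 0 ≤ x / w0 := by positivity
  have hD : w1 - 1 < 0 := by
    by_contra hn
    linarith [mul_nonneg u.le (not_lt.1 hn)]
  have ez0 : 0 ≤ e * z := mul_nonneg he z0
  have ez1 : e * z ≤ 1 / 50 := by nlinarith
  have m1 : x / w0 * (1 + w1) ≤ 2 := by nlinarith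
  generalize x / w0 = r at *
  generalize e * z = c at *
  have m3 : 2 * c * (x ^ 2 * w2) ≤ 2 * c * (11 / 100 * B) :=
    mul_le_mul_of_nonneg_left (by linarith) (by linarith)
  have m4 : 2 * c * (r * B) ≤ 2 * c * B :=
    mul_le_mul_of_nonneg_left (by nlinarith) (by linarith)
  have m2 : 1 - 2 * c ≤ 1 + 2 * c - 2 * c * (r * (1 + w1)) := by
    nlinarith [mul_le_mul_of_nonneg_left m1 ez0]
  have m5 : (1 + 2 * c - 2 * c * (r * (1 + w1))) * (-(1 / 10 * B)) ≤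
      (1 - 2 * c) * (-(1 / 10 * B)) := mul_le_mul_of_nonpos_right m2 (by linarith)
  nlinarith [mul_le_mul_of_nonneg_right ez1 hB0.le]

/-- (b), strict form. -/
theorem upW_lt (h : XSol e t0 t1 xs w wt k kt) (he : 0 ≤ e) (he1 : e ≤ 1 / 100) (h01 : t0 ≤ t1)
    (hT : t1 < T) (hy : 0 < y) (hy1 : y ≤ 1 / 200) (hxs : y * (T - t0) ≤ xs) {K : ℝ} (hK : 0 < K)
    (hz : ∀ t x, t ∈ Icc t0 t1 → 0 ≤ x → x ≤ y * (T - t) →
      0 ≤ 1 - x * k 0 t x ∧ 1 - x * k 0 t x ≤ 2)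
    (h0 : ∀ x, 0 < x → x ≤ y * (T - t0) →
      w 0 t0 x - x < K * (T - t0) ^ 3 * x ^ (-(1 / 10 : ℝ)))
    (hr : ∀ t, t ∈ Icc t0 t1 → w 0 t (y * (T - t)) - y * (T - t) <
      K * (T - t) ^ 3 * (y * (T - t)) ^ (-(1 / 10 : ℝ))) :
    ∀ t x, t ∈ Icc t0 t1 → 0 < x → x ≤ y * (T - t) →
      w 0 t x - x < K * (T - t) ^ 3 * x ^ (-(1 / 10 : ℝ)) := by
  have main := mp_sing (ι := Unit) (r := fun t => y * (T - t)) (s := fun t => K * (T - t) ^ 3)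
    (st := fun t => -(3 * K * (T - t) ^ 2)) (a := 1 / 10) (b := 0) (K := 0) h01 (by norm_num)
    le_rfl (by fun_prop) (fun t _ b => mul_pos hy (by linarith)) (by fun_prop)
    (fun t _ b => mul_pos hK (pow_pos (by linarith) 3))
    (fun t _ _ => (hasDeriv_tau3 K T t).hasDerivWithinAt)
    (fun _ t x => w 0 t x - x) (fun _ t x => wt 0 t x) (fun _ t x => w 1 t x - 1)
    (fun _ t x => w 2 t x) ?_ ?_ ?_ ?_ ?_ ?_ ?_
  · intro t x ht a b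
    have := main () t x ht.1 ht.2 a b
    linarith
  · intro _
    exact ((h.jw.cu 0).mono (reg_sub hy hxs)).sub continuousOn_snd
  · intro _ t x a b c d
    exact (jet_dt h.jw 0 a b c.le (le_xs hy hxs a.le d.le)).sub_const x
  · intro _ t x a b c d
    exact (jet_dx h.jw 0 a.le b c (lt_xs hy hxs a.le d)).sub (hasDerivAt_id x)
  · intro _ t x a b c d
    exact (jet_dx h.jw 1 a.le b c (lt_xs hy hxs a.le d)).sub_const 1
  · intro _ x a b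
    linarith [h0 x a b]
  · intro _ t x a b u d e0 e1 e2 e3
    have hx : x ∈ Icc 0 xs := ⟨u.le, le_xs hy hxs a.le d.le⟩
    have hw := h.pos t x ⟨a.le, b⟩ hx
    obtain ⟨z0, z2⟩ := hz t x ⟨a.le, b⟩ u.le d.le
    rw [h.eqW t x ⟨a.le, b⟩ hx, rhsW] at e1
    have hτ : 0 < T - t := by linarith
    have hp : 0 < x ^ (-(1 / 10 : ℝ)) := Real.rpow_pos_of_pos u _
    simp only [zero_mul, zero_add, zero_sub] at e0 e2 e3
    have m7 : x ≤ (T - t) / 200 := by nlinarith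
    exact alg_b he he1 hK hτ hp u hw z0 z2 m7 e0 e1 e2 e3
  · intro _ t a b
    linarith [hr t ⟨a.le, b⟩]

/-- (b): `W ≤ K τ³ x^(-1/10)` on `0 < x ≤ y τ`. -/
theorem upW (h : XSol e t0 t1 xs w wt k kt) (he : 0 ≤ e) (he1 : e ≤ 1 / 100)
    (hT : t1 < T) (hy : 0 < y) (hy1 : y ≤ 1 / 200) (hxs : y * (T - t0) ≤ xs) {K : ℝ} (hK : 0 < K)
    (hz : ∀ t x, t ∈ Icc t0 t1 → 0 ≤ x → x ≤ y * (T - t) →
      0 ≤ 1 - x * k 0 t x ∧ 1 - x * k 0 t x ≤ 2)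
    (h0 : ∀ x, 0 < x → x ≤ y * (T - t0) →
      w 0 t0 x - x ≤ K * (T - t0) ^ 3 * x ^ (-(1 / 10 : ℝ)))
    (hr : ∀ t, t ∈ Icc t0 t1 → w 0 t (y * (T - t)) - y * (T - t) ≤
      K * (T - t) ^ 3 * (y * (T - t)) ^ (-(1 / 10 : ℝ))) :
    ∀ t x, t ∈ Icc t0 t1 → 0 < x → x ≤ y * (T - t) →
      w 0 t x - x ≤ K * (T - t) ^ 3 * x ^ (-(1 / 10 : ℝ)) := by
  intro t x ht a b
  have hτ : ∀ s u, s ≤ t1 → 0 < u → 0 < (T - s) ^ 3 * u ^ (-(1 / 10 : ℝ)) := fun s u hs hu =>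
    mul_pos (pow_pos (by linarith) 3) (Real.rpow_pos_of_pos hu _)
  rw [mul_assoc, ← div_le_iff₀ (hτ t x ht.2 a)]
  refine le_of_forall_gt_imp_ge_of_dense fun K' hK' => ?_
  rw [div_le_iff₀ (hτ t x ht.2 a), ← mul_assoc]
  refine (upW_lt h he he1 (ht.1.trans ht.2) hT hy hy1 hxs (hK.trans hK') hz ?_ ?_ t x ht a b).le
  · intro u c d
    refine (h0 u c d).trans_lt ?_
    rw [mul_assoc, mul_assoc]
    exact mul_lt_mul_of_pos_right hK' (hτ t0 u (ht.1.trans ht.2) c)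
  · intro s hs
    refine (hr s hs).trans_lt ?_
    rw [mul_assoc, mul_assoc]
    exact mul_lt_mul_of_pos_right hK' (hτ s _ hs.2 (mul_pos hy (by linarith [hs.2])))

end Crest.Agent.N207.S.I1
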