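import Crest.Agent.N207.S.Top.IDefs

/-!
Row 207 (S0320), block I1 (d): the statement (premise of REG on the whole time interval).
-/

set_option autoImplicit false

open Set

namespace Crest.Agent.N207.S.I1

open Top

/-- I1 (d): under the hypotheses of `Top.InnerStmt` the premise of REG holds on `[0,t]`. -/
def PreStmt : Prop :=
  ∀ C : ℝ, 1 ≤ C → ∃ e0 X0 : ℝ, 0 < e0 ∧ 0 < X0 ∧ ∀ X : ℝ, 0 < X → X ≤ X0 →
    ∃ τ1 : ℝ, 0 < τ1 ∧ ∀ (e t T xs : ℝ) (w wt k kt : ℕ → ℝ → ℝ → ℝ), 0 < e → e ≤ e0 → X < xs →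
      XSol e 0 t xs w wt k kt → 0 ≤ t → t < T → T ≤ τ1 → DatI e T X w k →
      (∀ s ∈ Icc 0 t, ∀ x ∈ Icc 0 xs, 0 < 1 - x * k 0 s x) →
      (∀ s ∈ Icc 0 t, Out.Out T X w s) →
      (∀ u ∈ Icc 0 t, (∀ s ∈ Icc 0 u, Pre X w s) → ∀ s ∈ Icc 0 u, RX C e X w k s) →
      ∀ s ∈ Icc 0 t, Pre X w s

end Crest.Agent.N207.S.I1
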