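import Crest.Agent.N207.S.I1.C

/-!
Row 207 (S0320), block I1: pointwise estimates (source term of the `z` equation, end point,
powers of `τ`).
-/

set_option autoImplicit false

open Set

namespace Crest.Agent.N207.S.I1

theorem sq_sub_one_le {x w0 w1 a b : ℝ} (hw : 0 < w0) (h1 : |x * w1 / w0 - 1| ≤ a)
    (h2 : |x * w1 / w0| ≤ b) : |x ^ 2 * w1 ^ 2 / w0 ^ 2 - 1| ≤ a * (b + 1) := by
  have e : x ^ 2 * w1 ^ 2 / w0 ^ 2 - 1 = (x * w1 / w0 - 1) * (x * w1 / w0 + 1) := by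
    field_simp; ring
  rw [e, abs_mul]
  refine mul_le_mul h1 ((abs_add_le _ _).trans (by rw [abs_one]; linarith)) (abs_nonneg _)
    ((abs_nonneg _).trans h1)

theorem ratio_le {x w0 w1 c : ℝ} (hx : 0 ≤ x) (hw : 0 < w0) (hxw : x ≤ c * w0) (h1 : |w1| ≤ 2) :
    |x * w1 / w0| ≤ 2 * c := by
  rw [abs_div, abs_mul, abs_of_pos hw, abs_of_nonneg hx, div_le_iff₀ hw]
  nlinarith [abs_nonneg w1]

/-- outer source bound -/
theorem src_out {x w0 w1 : ℝ} (hx : 0 < x) (hx1 : x ≤ 1 / 10 ^ 10) (hw : 0 < w0)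
    (hxw : x ≤ 2 * w0) (h1 : |w1| ≤ 2) (hW : |w0 - x| ≤ x ^ (11 / 4 : ℝ))
    (hD : |w1 - 1| ≤ x ^ (7 / 4 : ℝ)) : |x ^ 2 * w1 ^ 2 / w0 ^ 2 - 1| ≤ x ^ (3 / 4 : ℝ) := by
  have p : 0 < x ^ (3 / 4 : ℝ) := Real.rpow_pos_of_pos hx _
  have e1 : x ^ (7 / 4 : ℝ) = x * x ^ (3 / 4 : ℝ) := by
    rw [← Real.rpow_one_add' hx.le (by norm_num)]; norm_num
  have e2 : x ^ (11 / 4 : ℝ) = x * (x * x ^ (3 / 4 : ℝ)) := by
    rw [← e1, ← Real.rpow_one_add' hx.le (by norm_num)]; norm_num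
  rw [e1] at hD
  rw [e2] at hW
  generalize x ^ (3 / 4 : ℝ) = p' at *
  have a1 : |x * w1 / w0 - 1| ≤ 4 * (x * p') := by
    have : x * w1 / w0 - 1 = (x * (w1 - 1) - (w0 - x)) / w0 := by field_simp; ring
    rw [this, abs_div, abs_of_pos hw, div_le_iff₀ hw]
    have b1 : |x * (w1 - 1) - (w0 - x)| ≤ x * (x * p') + x * (x * p') := by
      refine (abs_sub _ _).trans (add_le_add ?_ hW)
      rw [abs_mul, abs_of_pos hx]
      exact mul_le_mul_of_nonneg_left hD hx.le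
    have b2 : 0 < x * p' := mul_pos hx p
    nlinarith
  have := sq_sub_one_le hw a1 (ratio_le hx.le hw hxw h1)
  nlinarith

/-- inner source bound, given the interpolated bound for `D` -/
theorem src_in {x w0 w1 ρ c : ℝ} (hx : 0 < x) (hρ : 0 < ρ) (hxw : x ≤ w0) (h1 : |w1| ≤ 2)
    (hW : w0 - x ≤ ρ ^ 2 * x) (hD : |w1 - 1| ≤ c * ρ) :
    |x ^ 2 * w1 ^ 2 / w0 ^ 2 - 1| ≤ 3 * (c + 1) * ρ := by
  have hw : 0 < w0 := hx.trans_le hxw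
  have b0 : w0 - x ≤ ρ * w0 := by
    by_cases hc : 1 ≤ ρ
    · nlinarith
    · have : ρ ^ 2 * x ≤ ρ * x := by nlinarith [mul_pos hρ hx, not_le.1 hc]
      nlinarith
  have a1 : |x * w1 / w0 - 1| ≤ (c + 1) * ρ := by
    have : x * w1 / w0 - 1 = (x * (w1 - 1) - (w0 - x)) / w0 := by field_simp; ring
    rw [this, abs_div, abs_of_pos hw, div_le_iff₀ hw]
    have b1 : |x * (w1 - 1) - (w0 - x)| ≤ w0 * (c * ρ) + ρ * w0 := by
      refine (abs_sub _ _).trans (add_le_add ?_ ?_)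
      · rw [abs_mul, abs_of_pos hx]
        exact mul_le_mul hxw hD (abs_nonneg _) hw.le
      · rwa [abs_of_nonneg (by linarith)]
    linarith
  have := sq_sub_one_le hw a1 (ratio_le (c := 1) hx.le hw (by linarith) h1)
  linarith

/-- Landau type interpolation on `[x/2, x]`. -/
theorem landau_in {f f1 f2 : ℝ → ℝ} {x ρ C : ℝ} (hx : 0 < x) (hρ : 0 < ρ) (hC : 0 ≤ C)
    (h1 : ∀ y ∈ Icc (x / 2) x, HasDerivWithinAt f (f1 y) (Icc (x / 2) x) y)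
    (h2 : ∀ y ∈ Icc (x / 2) x, HasDerivWithinAt f1 (f2 y) (Icc (x / 2) x) y)
    (b0 : ∀ y ∈ Icc (x / 2) x, 0 ≤ f y ∧ f y ≤ 2 * (ρ ^ 2 * x))
    (b2 : ∀ y ∈ Icc (x / 2) x, |f2 y| ≤ 2 * C / x) (b1 : |f1 x| ≤ 3) :
    |f1 x| ≤ (2 * C + 6) * ρ := by
  by_cases hc : 1 / 2 ≤ ρ
  · nlinarith [mul_nonneg hC hρ.le]
  have hc' : ρ < 1 / 2 := not_le.1 hc
  have hh : 0 < ρ * x := mul_pos hρ hx
  have hs : Icc (x - ρ * x) x ⊆ Icc (x / 2) x := Icc_subset_Icc (by nlinarith) le_rfl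
  obtain ⟨ξ, hξ, e⟩ := exists_hasDerivAt_eq_slope f f1 (a := x - ρ * x) (b := x) (by linarith)
    (fun y hy => ((h1 y (hs hy)).continuousWithinAt).mono hs)
    (fun y hy => (h1 y (hs (Ioo_subset_Icc_self hy))).hasDerivAt
      (Icc_mem_nhds (by nlinarith [hy.1]) hy.2))
  have hξ' : ξ ∈ Icc (x / 2) x := hs (Ioo_subset_Icc_self hξ)
  have hxm : x ∈ Icc (x / 2) x := ⟨by linarith, le_rfl⟩
  have c1 : |f1 ξ| ≤ 2 * ρ := by
    rw [e, show x - (x - ρ * x) = ρ * x by ring, abs_div, abs_of_pos hh, div_le_iff₀ hh, abs_le]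
    have u := b0 x hxm
    have v := b0 _ (hs ⟨le_rfl, by linarith⟩)
    constructor <;> nlinarith
  have c2 := (convex_Icc (x / 2) x).norm_image_sub_le_of_norm_hasDerivWithin_le h2
    (fun y hy => by rw [Real.norm_eq_abs]; exact b2 y hy) hξ' hxm
  rw [Real.norm_eq_abs, Real.norm_eq_abs, abs_of_nonneg (sub_nonneg.2 hξ.2.le)] at c2
  have c3 : 2 * C / x * (x - ξ) ≤ 2 * C * ρ := by
    have : 2 * C / x * (x - ξ) ≤ 2 * C / x * (ρ * x) :=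
      mul_le_mul_of_nonneg_left (by linarith [hξ.1]) (by positivity)
    refine this.trans (le_of_eq ?_)
    field_simp
  have c4 : |f1 x| ≤ |f1 x - f1 ξ| + |f1 ξ| := by
    have := abs_add_le (f1 x - f1 ξ) (f1 ξ)
    rwa [sub_add_cancel] at this
  nlinarith

/-- bound of the time derivative of `z` -/
theorem zt_le {e x w0 w1 k0 k1 k2 : ℝ} (he : 0 ≤ e) (he1 : e ≤ 1 / 100) (hx : 0 < x)
    (hw : 0 < w0) (hxw : x ≤ 2 * w0) (h1 : |w1| ≤ 2) (a0 : |x * k0| ≤ 1 / 100)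
    (a1 : |x ^ 2 * k1| ≤ 1 / 100) (a2 : |x ^ 3 * k2| ≤ 2 / 100) :
    |-(x * rhsK e x w0 w1 k0 k1 k2)| ≤ 1 / x := by
  rw [le_div_iff₀ hx, mul_comm, ← abs_of_pos hx, ← abs_mul, abs_of_pos hx, ze_eq he hw.ne']
  have r := abs_le.1 (ratio_le hx.le hw hxw h1)
  have er : x ^ 2 * w1 ^ 2 / w0 ^ 2 = (x * w1 / w0) ^ 2 := by field_simp
  have hz0 : 1 - 2 * e ≤ 1 / (1 + 2 * e) := by
    rw [le_div_iff₀ (by positivity)]; nlinarith
  have hz1 : 1 / (1 + 2 * e) ≤ 1 := by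
    rw [div_le_one (by positivity)]; linarith
  have b0 := abs_le.1 a0
  have b1 := abs_le.1 a1
  have b2 := abs_le.1 a2
  have g : |ze e x k0| ≤ 3 / 100 := by rw [ze, abs_le]; constructor <;> linarith
  have g1 : |x * -(k0 + x * k1)| ≤ 2 / 100 := by rw [abs_le]; constructor <;> nlinarith
  have g2 : |x ^ 2 * -(2 * k1 + x * k2)| ≤ 4 / 100 := by rw [abs_le]; constructor <;> nlinarith
  have g3 : |(x * w1 / w0) ^ 2 - 1| ≤ 15 := by rw [abs_le]; constructor <;> nlinarith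
  have z : |1 - x * k0| ≤ 11 / 10 := by rw [abs_le]; constructor <;> linarith
  rw [er]
  generalize ze e x k0 = u at *
  generalize x * -(k0 + x * k1) = u1 at *
  generalize x ^ 2 * -(2 * k1 + x * k2) = u2 at *
  generalize (x * w1 / w0) ^ 2 - 1 = S at *
  generalize 1 - x * k0 = z' at *
  have t1 : |2 * e * z' * u2| ≤ 2 * (1 / 100) * (11 / 10) * (4 / 100) := by
    rw [abs_mul, abs_mul, abs_of_nonneg (by positivity : 0 ≤ 2 * e)]; gcongr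
  have t2 : |e * u1 ^ 2| ≤ 1 / 100 * (2 / 100) ^ 2 := by
    rw [abs_mul, abs_pow, abs_of_nonneg he]; gcongr
  have t3 : |z' * (1 + 2 * e) * u| ≤ 11 / 10 * (1 + 2 * (1 / 100)) * (3 / 100) := by
    rw [abs_mul, abs_mul, abs_of_nonneg (by positivity : 0 ≤ 1 + 2 * e)]; gcongr
  have t4 : |2 * e * z' ^ 2 * S| ≤ 2 * (1 / 100) * (11 / 10) ^ 2 * 15 := by
    rw [abs_mul, abs_mul, abs_pow, abs_of_nonneg (by positivity : 0 ≤ 2 * e)]; gcongr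
  have := abs_le.1 t1; have := abs_le.1 t2; have := abs_le.1 t3; have := abs_le.1 t4
  have := abs_le.1 g1
  rw [abs_le]; constructor <;> linarith

theorem tau_pow {τ x p : ℝ} (hτ : 0 < τ) (hx : 0 < x) (h : τ ^ (21 / 20 : ℝ) / 2 ≤ x) (hp : 0 ≤ p)
    (hp3 : p ≤ 3) : τ ^ (21 / 20 * p) ≤ 8 * x ^ p := by
  rw [Real.rpow_mul hτ.le]
  calc (τ ^ (21 / 20 : ℝ)) ^ p ≤ (2 * x) ^ p :=
        Real.rpow_le_rpow (Real.rpow_nonneg hτ.le _) (by linarith) hp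
    _ = 2 ^ p * x ^ p := Real.mul_rpow (by norm_num) hx.le
    _ ≤ 2 ^ (3 : ℝ) * x ^ p := mul_le_mul_of_nonneg_right
        (Real.rpow_le_rpow_of_exponent_le (by norm_num) hp3) (Real.rpow_nonneg hx.le _)
    _ = 8 * x ^ p := by norm_num

theorem tau3_le {τ x : ℝ} (hτ : 0 < τ) (hx : 0 < x) (hx1 : x ≤ 1)
    (h : τ ^ (21 / 20 : ℝ) / 2 ≤ x) : τ ^ 3 * x ^ (-(1 / 10) : ℝ) ≤ 8 * x ^ (11 / 4 : ℝ) := by
  have h1 := tau_pow (p := 20 / 7) hτ hx h (by norm_num) (by norm_num)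
  rw [show (21 / 20 * (20 / 7) : ℝ) = ((3 : ℕ) : ℝ) by norm_num, Real.rpow_natCast] at h1
  calc τ ^ 3 * x ^ (-(1 / 10) : ℝ) ≤ 8 * x ^ (20 / 7 : ℝ) * x ^ (-(1 / 10) : ℝ) :=
        mul_le_mul_of_nonneg_right h1 (Real.rpow_nonneg hx.le _)
    _ = 8 * x ^ ((20 / 7 : ℝ) + -(1 / 10)) := by rw [Real.rpow_add hx]; ring
    _ ≤ 8 * x ^ (11 / 4 : ℝ) := mul_le_mul_of_nonneg_left
        (Real.rpow_le_rpow_of_exponent_ge hx hx1 (by norm_num)) (by norm_num)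

theorem tau32_le {τ x : ℝ} (hτ : 0 < τ) (hx : 0 < x) (hx1 : x ≤ 1)
    (h : τ ^ (21 / 20 : ℝ) / 2 ≤ x) :
    τ ^ (3 / 2 : ℝ) * x ^ (-(11 / 20 : ℝ)) ≤ 8 * x ^ (3 / 4 : ℝ) := by
  have h1 := tau_pow (p := 10 / 7) hτ hx h (by norm_num) (by norm_num)
  rw [show (21 / 20 * (10 / 7) : ℝ) = 3 / 2 by norm_num] at h1
  calc τ ^ (3 / 2 : ℝ) * x ^ (-(11 / 20 : ℝ)) ≤ 8 * x ^ (10 / 7 : ℝ) * x ^ (-(11 / 20 : ℝ)) :=
        mul_le_mul_of_nonneg_right h1 (Real.rpow_nonneg hx.le _)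
    _ = 8 * x ^ ((10 / 7 : ℝ) + -(11 / 20)) := by rw [Real.rpow_add hx]; ring
    _ ≤ 8 * x ^ (3 / 4 : ℝ) := mul_le_mul_of_nonneg_left
        (Real.rpow_le_rpow_of_exponent_ge hx hx1 (by norm_num)) (by norm_num)

theorem rho_sq {τ x : ℝ} (hτ : 0 < τ) (hx : 0 < x) :
    (τ ^ (3 / 2 : ℝ) * x ^ (-(11 / 20 : ℝ))) ^ 2 * x = τ ^ 3 * x ^ (-(1 / 10 : ℝ)) := by
  rw [mul_pow, ← Real.rpow_natCast, ← Real.rpow_natCast (x ^ (-(11 / 20 : ℝ))),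
    ← Real.rpow_mul hτ.le, ← Real.rpow_mul hx.le, mul_assoc, ← Real.rpow_add_one hx.ne',
    ← Real.rpow_natCast τ 3]
  norm_num

theorem half_rpow {x y : ℝ} (hx : 0 < x) (h : x / 2 ≤ y) :
    y ^ (-(1 / 10 : ℝ)) ≤ 2 * x ^ (-(1 / 10 : ℝ)) := by
  calc y ^ (-(1 / 10 : ℝ)) ≤ (x / 2) ^ (-(1 / 10 : ℝ)) :=
        Real.rpow_le_rpow_of_nonpos (by linarith) h (by norm_num)
    _ = x ^ (-(1 / 10 : ℝ)) * 2 ^ (1 / 10 : ℝ) := by
        rw [Real.div_rpow hx.le (by norm_num), Real.rpow_neg (by norm_num : (0 : ℝ) ≤ 2),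
          div_inv_eq_mul]
    _ ≤ x ^ (-(1 / 10 : ℝ)) * 2 ^ (1 : ℝ) := mul_le_mul_of_nonneg_left
        (Real.rpow_le_rpow_of_exponent_le (by norm_num) (by norm_num)) (Real.rpow_nonneg hx.le _)
    _ = 2 * x ^ (-(1 / 10 : ℝ)) := by rw [Real.rpow_one, mul_comm]

theorem end_small {T X : ℝ} (hT : 0 < T) (hX : 0 < X) (hX1 : X ≤ 1) (h : T ≤ X ^ 2 / 2) :
    T ^ (3 / 2 : ℝ) * X ^ (-(11 / 20) : ℝ) / 2 + 1 / X * T ≤ X ^ (3 / 4 : ℝ) := by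
  have h1 : T ^ (3 / 2 : ℝ) ≤ X ^ (3 : ℝ) := by
    calc T ^ (3 / 2 : ℝ) ≤ (X ^ (2 : ℝ)) ^ (3 / 2 : ℝ) :=
          Real.rpow_le_rpow hT.le (by rw [Real.rpow_two]; nlinarith) (by norm_num)
      _ = X ^ (3 : ℝ) := by rw [← Real.rpow_mul hX.le]; norm_num
  have h2 : T ^ (3 / 2 : ℝ) * X ^ (-(11 / 20) : ℝ) ≤ X ^ (3 / 4 : ℝ) := by
    calc T ^ (3 / 2 : ℝ) * X ^ (-(11 / 20) : ℝ) ≤ X ^ (3 : ℝ) * X ^ (-(11 / 20) : ℝ) :=
          mul_le_mul_of_nonneg_right h1 (Real.rpow_nonneg hX.le _)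
      _ = X ^ ((3 : ℝ) + -(11 / 20)) := (Real.rpow_add hX _ _).symm
      _ ≤ X ^ (3 / 4 : ℝ) := Real.rpow_le_rpow_of_exponent_ge hX hX1 (by norm_num)
  have h3 : X ≤ X ^ (3 / 4 : ℝ) := by
    have := Real.rpow_le_rpow_of_exponent_ge hX hX1 (show (3 / 4 : ℝ) ≤ 1 by norm_num)
    rwa [Real.rpow_one] at this
  have h4 : 1 / X * T ≤ X / 2 := by
    rw [one_div, inv_mul_le_iff₀ hX]; nlinarith
  linarith

end Crest.Agent.N207.S.I1
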