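import Crest.Agent.N207.S.I1.AB
import Crest.Agent.N207.S.I1.Src
import Crest.Agent.N207.S.I1.PDefs

/-!
Row 207 (S0320), block I1: `PreStmt → Top.InnerStmt`.
-/

set_option autoImplicit false

open Set

namespace Crest.Agent.N207.S.I1

open Top

theorem pow_mul_le {x w0 u c : ℝ} {j : ℕ} (hx : 0 ≤ x) (hw : 0 < w0) (hxw : x ≤ 2 * w0)
    (h : |w0 ^ j * u| ≤ c) : |u| * x ^ j ≤ 2 ^ j * c := by
  rw [abs_mul, abs_of_pos (pow_pos hw j)] at h
  calc |u| * x ^ j ≤ |u| * (2 * w0) ^ j :=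
        mul_le_mul_of_nonneg_left (pow_le_pow_left₀ hx hxw j) (abs_nonneg _)
    _ = 2 ^ j * (w0 ^ j * |u|) := by rw [mul_pow]; ring
    _ ≤ 2 ^ j * c := mul_le_mul_of_nonneg_left h (by positivity)

theorem abs_pow_mul_le {x w0 u c : ℝ} {j : ℕ} (hx : 0 ≤ x) (hw : 0 < w0) (hxw : x ≤ 2 * w0)
    (h : |w0 ^ j * u| ≤ c) : |x ^ j * u| ≤ 2 ^ j * c := by
  rw [abs_mul, abs_of_nonneg (pow_nonneg hx j), mul_comm]
  exact pow_mul_le hx hw hxw h

section
variable {C e t T X : ℝ} {w wt k kt : ℕ → ℝ → ℝ → ℝ}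

theorem inn_of (he : 0 < e) (he1 : e ≤ 1 / 100) (h : XSol e 0 t X w wt k kt) (hT : t < T)
    (hTX : T ≤ X) (hD : DatI e T X w k)
    (hk : ∀ s x, s ∈ Icc 0 t → x ∈ Icc 0 X → |x * k 0 s x| ≤ 1 / 100)
    (hO : ∀ s ∈ Icc 0 t, Out.Out T X w s) :
    ∀ s ∈ Icc 0 t, (∀ x ∈ Icc 0 ((T - s) / 200), (T - s) ^ 3 / 4 ≤ w 0 s x - x) ∧
      (∀ x ∈ Ioc 0 ((T - s) / 200),
        w 0 s x - x ≤ 3 / 4 * (T - s) ^ 3 * x ^ (-(1 / 10 : ℝ))) := by
  intro s hs
  have hT0 : 0 < T := by linarith [hs.1, hs.2]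
  have hy : (1 / 200 : ℝ) * (T - 0) ≤ X := by linarith
  have ey : ∀ u : ℝ, (1 / 200 : ℝ) * u = u / 200 := fun u => by ring
  have hz : ∀ u x, u ∈ Icc 0 t → 0 ≤ x → x ≤ 1 / 200 * (T - u) →
      0 ≤ 1 - x * k 0 u x ∧ 1 - x * k 0 u x ≤ 2 := by
    intro u x hu a b
    have := abs_le.1 (hk u x hu ⟨a, by linarith [hu.1]⟩)
    constructor <;> linarith
  constructor
  · intro x hx
    have := lowW (y := 1 / 200) (c := 1 / 4) h he.le hT (by norm_num) hy (by norm_num)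
      (fun u x hu a b => (hz u x hu a b).1)
      (fun x a b => by
        have := (hD.1 x ⟨a, by linarith⟩).1
        rw [sub_zero]; linarith)
      (fun u hu => by
        have := (hO u hu).2.1
        rw [ey]; linarith) s x hs hx.1 (by linarith [hx.2])
    linarith
  · intro x hx
    exact upW (y := 1 / 200) (K := 3 / 4) h he.le he1 hT (by norm_num) le_rfl hy (by norm_num) hz
      (fun x a b => by
        have := hD.2.1 x ⟨a, by linarith⟩
        rwa [sub_zero])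
      (fun u hu => by
        have := (hO u hu).2.2
        rwa [ey]) s x hs hx.1 (by linarith [hx.2])

theorem src_of (hC : 1 ≤ C) (he : 0 < e) (heC : C * e ≤ 1 / 1000) (hX : X ≤ 1 / 10 ^ 10)
    (h : XSol e 0 t X w wt k kt) (hT : t < T) {s : ℝ} (hs : s ∈ Icc 0 t)
    (hO : Out.Out T X w s) (hP : Pre X w s) (hR : RX C e X w k s)
    (hl : ∀ x ∈ Icc 0 ((T - s) / 200), (T - s) ^ 3 / 4 ≤ w 0 s x - x)
    (hu : ∀ x ∈ Ioc 0 ((T - s) / 200), w 0 s x - x ≤ 3 / 4 * (T - s) ^ 3 * x ^ (-(1 / 10 : ℝ)))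
    {x : ℝ} (hx : 0 < x) (hxX : x ≤ X) :
    e * |x ^ 2 * w 1 s x ^ 2 / w 0 s x ^ 2 - 1| ≤
      (x ^ (3 / 4 : ℝ) + (T - s) ^ (3 / 2 : ℝ) * x ^ (-(11 / 20 : ℝ))) / 30 := by
  have hτ : 0 < T - s := by linarith [hs.2]
  have p1 : 0 < x ^ (3 / 4 : ℝ) := Real.rpow_pos_of_pos hx _
  have hρ : 0 < (T - s) ^ (3 / 2 : ℝ) * x ^ (-(11 / 20 : ℝ)) :=
    mul_pos (Real.rpow_pos_of_pos hτ _) (Real.rpow_pos_of_pos hx _)
  have he1 : e ≤ 1 / 1000 := by nlinarith
  have hw := h.pos s x hs ⟨hx.le, hxX⟩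
  have hP' := hP x ⟨hx.le, hxX⟩
  by_cases hc : (T - s) / 200 ≤ x
  · have o := hO.1 x ⟨hc, hxX⟩
    have := src_out hx (hxX.trans hX) hw hP'.1 hP'.2 o.1 o.2.1
    nlinarith [mul_le_mul he1 this (abs_nonneg _) (by norm_num)]
  · have hc' : x ≤ (T - s) / 200 := (not_le.1 hc).le
    have hτ3 : 0 < (T - s) ^ 3 := pow_pos hτ 3
    have hm : ∀ y ∈ Icc (x / 2) x, y ∈ Icc 0 X := fun y hy => ⟨by linarith [hy.1], hy.2.trans hxX⟩
    have hsub : Icc (x / 2) x ⊆ Icc 0 X := hm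
    have p2 : 0 < x ^ (-(1 / 10 : ℝ)) := Real.rpow_pos_of_pos hx _
    have hlow : ∀ y ∈ Icc (x / 2) x, y ≤ w 0 s y := fun y hy => by
      linarith [hl y ⟨(hm y hy).1, hy.2.trans hc'⟩]
    have hD := landau_in (f := fun y => w 0 s y - y) (f1 := fun y => w 1 s y - 1)
      (f2 := fun y => w 2 s y) (C := C) hx hρ (by linarith)
      (fun y hy => ((h.jw.dx 0 s y hs (hm y hy)).mono hsub).sub (hasDerivWithinAt_id y _))
      (fun y hy => ((h.jw.dx 1 s y hs (hm y hy)).mono hsub).sub_const 1)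
      (fun y hy => ⟨sub_nonneg.2 (hlow y hy), by
        have a := hu y ⟨by linarith [hy.1], hy.2.trans hc'⟩
        have b := mul_le_mul_of_nonneg_left (half_rpow hx hy.1) hτ3.le
        rw [rho_sq hτ hx]
        nlinarith [mul_pos hτ3 p2]⟩)
      (fun y hy => by
        have a := (hR y (hm y hy) 1 (by norm_num)).1
        have b := hlow y hy
        have c := h.pos s y hs (hm y hy)
        rw [pow_one, abs_mul, abs_of_pos c] at a
        rw [le_div_iff₀ hx]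
        nlinarith [abs_nonneg (w (1 + 1) s y), hy.1])
      (by have := abs_le.1 hP'.2; rw [abs_le]; constructor <;> linarith)
    have := src_in hx hρ (hlow x ⟨by linarith, le_rfl⟩) hP'.2 (by
      have a := hu x ⟨hx, hc'⟩
      rw [rho_sq hτ hx]
      nlinarith [mul_pos hτ3 p2]) hD
    have a1 := mul_le_mul_of_nonneg_left this he.le
    have a2 : e * (3 * (2 * C + 6 + 1)) ≤ 1 / 30 := by nlinarith
    nlinarith [mul_le_mul_of_nonneg_right a2 hρ.le]

theorem end_of (hC : 1 ≤ C) (he : 0 < e) (heC : C * e ≤ 1 / 1000) (hX0 : 0 < X) (hX : X ≤ 1)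
    (h : XSol e 0 t X w wt k kt) (hT : t < T) (hTX : T ≤ X ^ 2 / 2) (hD : DatI e T X w k)
    (hP : ∀ s ∈ Icc 0 t, Pre X w s) (hR : ∀ s ∈ Icc 0 t, RX C e X w k s) :
    ∀ s, s ∈ Icc 0 t → |ze e X (k 0 s X)| ≤ X ^ (3 / 4 : ℝ) := by
  intro s hs
  have hXm : X ∈ Icc 0 X := ⟨hX0.le, le_rfl⟩
  have he1 : e ≤ 1 / 1000 := by nlinarith
  have hT0 : 0 < T := by linarith [hs.1, hs.2]
  have c := (convex_Icc 0 t).norm_image_sub_le_of_norm_hasDerivWithin_le
    (f := fun u => ze e X (k 0 u X)) (f' := fun u => -(X * kt 0 u X)) (C := 1 / X)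
    (fun u hu => (((h.jk.dt 0 u X hu hXm).const_mul X).const_sub 1).sub_const _)
    (fun u hu => by
      have hw := h.pos u X hu hXm
      have p := hP u hu X hXm
      have r0 := abs_pow_mul_le hX0.le hw p.1 (hR u hu X hXm 0 (by norm_num)).2
      have r1 := abs_pow_mul_le hX0.le hw p.1 (hR u hu X hXm 1 (by norm_num)).2
      have r2 := abs_pow_mul_le hX0.le hw p.1 (hR u hu X hXm 2 (by norm_num)).2
      norm_num at r0 r1 r2
      rw [Real.norm_eq_abs, h.eqK u X hu hXm]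
      refine zt_le he.le (by linarith) hX0 hw p.1 p.2 ?_ ?_ ?_
      · rw [abs_mul]; linarith
      · rw [abs_mul, abs_pow]; rw [sq_abs]; linarith
      · rw [abs_mul, abs_pow]; linarith)
    (⟨le_rfl, hs.1.trans hs.2⟩ : (0 : ℝ) ∈ Icc 0 t) hs
  rw [Real.norm_eq_abs, Real.norm_eq_abs, sub_zero, abs_of_nonneg hs.1] at c
  have d := hD.2.2 X ⟨hX0, le_rfl⟩
  have f := end_small hT0 hX0 hX hTX
  have g : 1 / X * s ≤ 1 / X * T :=
    mul_le_mul_of_nonneg_left (by linarith [hs.2]) (by positivity)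
  have i := abs_add_le (ze e X (k 0 s X) - ze e X (k 0 0 X)) (ze e X (k 0 0 X))
  rw [sub_add_cancel] at i
  have d' : |ze e X (k 0 0 X)| ≤ T ^ (3 / 2 : ℝ) * X ^ (-(11 / 20) : ℝ) / 2 := d
  linarith

end

theorem inner_of (hd : PreStmt) : InnerStmt := by
  intro C hC
  obtain ⟨e0, X0, he0, hX0, H⟩ := hd C hC
  refine ⟨2 ^ 41 * C, min e0 (1 / (1000 * C)), min X0 (1 / 10 ^ 10), by nlinarith,
    lt_min he0 (by positivity), lt_min hX0 (by norm_num), fun X hX hXX => ?_⟩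
  obtain ⟨τ1, hτ1, H⟩ := H X hX (hXX.trans (min_le_left _ _))
  refine ⟨min τ1 (X ^ 2 / 2), lt_min hτ1 (by positivity), ?_⟩
  intro e t T xs w wt k kt he hee hxs h ht hT hTτ hD hz hO hR
  have hP := H e t T xs w wt k kt he (hee.trans (min_le_left _ _)) hxs h ht hT
    (hTτ.trans (min_le_left _ _)) hD hz hO hR
  have hR' := hR t ⟨ht, le_rfl⟩ hP
  have hX1 : X ≤ 1 / 10 ^ 10 := hXX.trans (min_le_right _ _)
  have hTX : T ≤ X ^ 2 / 2 := hTτ.trans (min_le_right _ _)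
  have heC : C * e ≤ 1 / 1000 := by
    have := hee.trans (min_le_right _ _)
    rw [le_div_iff₀ (by positivity)] at this
    linarith
  have he1 : e ≤ 1 / 100 := by nlinarith
  have hX2 : X ≤ 1 := hX1.trans (by norm_num)
  have h' := h.monoX hxs.le
  have hk : ∀ s x, s ∈ Icc 0 t → x ∈ Icc 0 X → |x * k 0 s x| ≤ 1 / 100 := by
    intro s x hs hx
    have := abs_pow_mul_le hx.1 (h'.pos s x hs hx) (hP s hs x hx).1
      (hR' s hs x hx 0 (by norm_num)).2
    rw [zero_add, pow_one, pow_one] at this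
    linarith
  have hI := inn_of he he1 h' hT (by nlinarith) hD hk hO
  have hZ := zeBar h' he.le he1 hT hX hX1 hk
    (fun s x hs a b => src_of hC he heC hX1 h' hT hs (hO s hs) (hP s hs) (hR' s hs) (hI s hs).1
      (hI s hs).2 a b)
    (fun x a b => by
      have d : |ze e x (k 0 0 x)| ≤ T ^ (3 / 2 : ℝ) * x ^ (-(11 / 20 : ℝ)) / 2 := hD.2.2 x ⟨a, b⟩
      have p1 : 0 < x ^ (3 / 4 : ℝ) := Real.rpow_pos_of_pos a _
      have := abs_nonneg (ze e x (k 0 0 x))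
      rw [sub_zero]; linarith)
    (end_of hC he heC hX hX2 h' hT hTX hD hP hR')
  intro s hs
  have hτ : 0 < T - s := by linarith [hs.2]
  have hτ3 : 0 < (T - s) ^ 3 := pow_pos hτ 3
  refine ⟨hP s hs, ?_, fun x hx => by linarith [(hI s hs).1 x hx], fun x hx => ?_⟩
  · intro x hx
    have hx0 : 0 < x := (half_pos (Real.rpow_pos_of_pos hτ _)).trans_le hx.1
    have hxm : x ∈ Icc 0 X := ⟨hx0.le, hx.2⟩
    have hw := h'.pos s x hs hxm
    have p := (hP s hs x hxm).1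
    have hx1 : x ≤ 1 := hx.2.trans hX2
    have p1 : 0 < x ^ (11 / 4 : ℝ) := Real.rpow_pos_of_pos hx0 _
    have p2 : 0 < x ^ (3 / 4 : ℝ) := Real.rpow_pos_of_pos hx0 _
    have hC9 : (9 : ℝ) ≤ 2 ^ 41 * C := by nlinarith
    refine ⟨fun j hj => ⟨?_, ?_⟩, ?_, ?_⟩
    · refine (pow_mul_le hx0.le hw p (hR' s hs x hxm j hj).1).trans ?_
      exact mul_le_mul_of_nonneg_right (pow_le_pow_right₀ (by norm_num) (by omega)) (by linarith)
    · refine (pow_mul_le hx0.le hw p (hR' s hs x hxm j hj).2).trans ?_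
      exact mul_le_mul (pow_le_pow_right₀ (by norm_num) (by omega)) (by nlinarith)
        (by positivity) (by positivity)
    · refine le_trans ?_ (mul_le_mul_of_nonneg_right hC9 p1.le)
      by_cases hc : (T - s) / 200 ≤ x
      · linarith [((hO s hs).1 x ⟨hc, hx.2⟩).1]
      · have hc' := (not_le.1 hc).le
        have a := (hI s hs).1 x ⟨hx0.le, hc'⟩
        have b := (hI s hs).2 x ⟨hx0, hc'⟩
        have c := tau3_le hτ hx0 hx1 hx.1
        rw [abs_of_nonneg (by linarith)]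
        have : (-(1 / 10) : ℝ) = -(1 / 10 : ℝ) := rfl
        linarith
    · refine le_trans ?_ (mul_le_mul_of_nonneg_right hC9 p2.le)
      have a : |1 - x * k 0 s x - 1 / (1 + 2 * e)| ≤ _ := hZ s x hs hx0 hx.2
      linarith [tau32_le hτ hx0 hx1 hx.1]
  · have b := (hI s hs).2 x hx
    have := mul_pos hτ3 (Real.rpow_pos_of_pos hx.1 (-(1 / 10 : ℝ)))
    linarith

end Crest.Agent.N207.S.I1
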