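import Crest.Agent.N207.S.MP
import Crest.Agent.N207.S.In.Defs

/-!
Row 207 (S0320), block I1: maximum principle with a barrier `K x^b + s(t) x^(-a)` that is singular
at `x = 0`, and derivative helpers for jets.
-/

set_option autoImplicit false

open Set

namespace Crest.Agent.N207.S.I1

open MP

theorem jet_dt {t0 t1 xs : ℝ} {u v : ℕ → ℝ → ℝ → ℝ} (h : Jet t0 t1 xs u v) (j : ℕ) {t x : ℝ}
    (a : t0 < t) (b : t ≤ t1) (c : 0 ≤ x) (d : x ≤ xs) :
    HasDerivWithinAt (fun s => u j s x) (v j t x) (Iic t) t :=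
  (h.dt j t x ⟨a.le, b⟩ ⟨c, d⟩).mono_of_mem_nhdsWithin (Icc_mem_nhdsLE_of_mem ⟨a, b⟩)

theorem jet_dx {t0 t1 xs : ℝ} {u v : ℕ → ℝ → ℝ → ℝ} (h : Jet t0 t1 xs u v) (j : ℕ) {t x : ℝ}
    (a : t0 ≤ t) (b : t ≤ t1) (c : 0 < x) (d : x < xs) :
    HasDerivAt (u j t) (u (j + 1) t x) x :=
  (h.dx j t x ⟨a, b⟩ ⟨c.le, d.le⟩).hasDerivAt (Icc_mem_nhds c d)

theorem hasDerivAt_rpow_div {x : ℝ} (hx : 0 < x) (a : ℝ) :
    HasDerivAt (fun y : ℝ => y ^ a) (a * x ^ a / x) x := by
  have := Real.hasDerivAt_rpow_const (x := x) (p := a) (Or.inl hx.ne')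
  rwa [Real.rpow_sub_one hx.ne', ← mul_div_assoc] at this

/-- Maximum principle with the singular barrier `K x^b + s t * x^(-a)` on `0 < x ≤ r t`. -/
theorem mp_sing {ι : Type*} [Finite ι] {r s st : ℝ → ℝ} {t0 t1 a b K : ℝ} (h01 : t0 ≤ t1)
    (ha : 0 < a) (hb : 0 ≤ b) (hr : ContinuousOn r (Icc t0 t1)) (hr0 : ∀ t, t0 ≤ t → t ≤ t1 → 0 < r t)
    (hsc : ContinuousOn s (Icc t0 t1)) (hs0 : ∀ t, t0 ≤ t → t ≤ t1 → 0 < s t)
    (hst : ∀ t, t0 < t → t ≤ t1 → HasDerivWithinAt s (st t) (Iic t) t)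
    (G Gt Gx Gxx : ι → ℝ → ℝ → ℝ)
    (hG : ∀ i, ContinuousOn (fun p : ℝ × ℝ => G i p.1 p.2) (Reg (fun _ => 0) r t0 t1))
    (ht : ∀ i t x, t0 < t → t ≤ t1 → 0 < x → x < r t →
      HasDerivWithinAt (fun s => G i s x) (Gt i t x) (Iic t) t)
    (hx : ∀ i t x, t0 < t → t ≤ t1 → 0 < x → x < r t → HasDerivAt (G i t) (Gx i t x) x)
    (hxx : ∀ i t x, t0 < t → t ≤ t1 → 0 < x → x < r t → HasDerivAt (Gx i t) (Gxx i t x) x)
    (h0 : ∀ i x, 0 < x → x ≤ r t0 → G i t0 x < K * x ^ b + s t0 * x ^ (-a))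
    (hint : ∀ i t x, t0 < t → t ≤ t1 → 0 < x → x < r t →
      G i t x = K * x ^ b + s t * x ^ (-a) → st t * x ^ (-a) ≤ Gt i t x →
      x * Gx i t x = b * (K * x ^ b) - a * (s t * x ^ (-a)) →
      x ^ 2 * Gxx i t x ≤ b * (b - 1) * (K * x ^ b) + a * (a + 1) * (s t * x ^ (-a)) → False)
    (hright : ∀ i t, t0 < t → t ≤ t1 → G i t (r t) < K * r t ^ b + s t * r t ^ (-a)) :
    ∀ i t x, t0 ≤ t → t ≤ t1 → 0 < x → x ≤ r t → G i t x < K * x ^ b + s t * x ^ (-a) := by
  -- multiply by `x ^ a`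
  have key : ∀ (g σ x : ℝ), 0 < x →
      (x ^ a * g - K * x ^ (a + b) - σ = x ^ a * (g - (K * x ^ b + σ * x ^ (-a)))) := by
    intro g σ x hx
    have h1 : x ^ a * x ^ (-a) = 1 := by rw [← Real.rpow_add hx]; simp
    rw [Real.rpow_add hx]
    linear_combination σ * h1
  have hab : 0 < a + b := by linarith
  have main := mp_family (ι := ι) (l := fun _ => 0) (r := r) (t0 := t0) (t1 := t1)
    continuousOn_const hr hr0
    (fun i t x => x ^ a * G i t x - K * x ^ (a + b) - s t)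
    (fun i t x => x ^ a * Gt i t x - st t)
    (fun i t x => a * x ^ a / x * G i t x + x ^ a * Gx i t x - K * ((a + b) * x ^ (a + b) / x))
    (fun i t x => (a * (a * x ^ a / x) * x - a * x ^ a) / x ^ 2 * G i t x +
      a * x ^ a / x * Gx i t x + (a * x ^ a / x * Gx i t x + x ^ a * Gxx i t x) -
      K * (((a + b) * ((a + b) * x ^ (a + b) / x) * x - (a + b) * x ^ (a + b)) / x ^ 2))
    ?_ ?_ ?_ ?_ ?_ ?_ ?_ ?_
  · intro i t x a0 a1 a2 a3
    have := main i t x a0 a1 a2.le a3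
    rw [key _ _ _ a2] at this
    have hp : 0 < x ^ a := Real.rpow_pos_of_pos a2 a
    have := (mul_neg_iff.1 this).resolve_right (fun h => absurd h.1 (not_lt.2 hp.le))
    linarith [this.2]
  · intro i
    have c1 : ContinuousOn (fun p : ℝ × ℝ => p.2 ^ a) (Reg (fun _ => 0) r t0 t1) :=
      continuousOn_snd.rpow_const fun _ _ => Or.inr ha.le
    have c2 : ContinuousOn (fun p : ℝ × ℝ => p.2 ^ (a + b)) (Reg (fun _ => 0) r t0 t1) :=
      continuousOn_snd.rpow_const fun _ _ => Or.inr hab.le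
    have c3 : ContinuousOn (fun p : ℝ × ℝ => s p.1) (Reg (fun _ => 0) r t0 t1) :=
      hsc.comp continuousOn_fst fun p hp => ⟨hp.1, hp.2.1⟩
    exact ((c1.mul (hG i)).sub (continuousOn_const.mul c2)).sub c3
  · intro i t x a0 a1 a2 a3
    exact (((ht i t x a0 a1 a2 a3).const_mul (x ^ a)).sub_const _).sub (hst t a0 a1)
  · intro i t x a0 a1 a2 a3
    exact (((hasDerivAt_rpow_div a2 a).mul (hx i t x a0 a1 a2 a3)).sub
      ((hasDerivAt_rpow_div a2 (a + b)).const_mul K)).sub_const _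
  · intro i t x a0 a1 a2 a3
    have d1 : HasDerivAt (fun y : ℝ => a * y ^ a / y)
        ((a * (a * x ^ a / x) * x - a * x ^ a * 1) / x ^ 2) x :=
      ((hasDerivAt_rpow_div a2 a).const_mul a).div (hasDerivAt_id x) a2.ne'
    have d2 : HasDerivAt (fun y : ℝ => (a + b) * y ^ (a + b) / y)
        (((a + b) * ((a + b) * x ^ (a + b) / x) * x - (a + b) * x ^ (a + b) * 1) / x ^ 2) x :=
      ((hasDerivAt_rpow_div a2 (a + b)).const_mul (a + b)).div (hasDerivAt_id x) a2.ne'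
    rw [mul_one] at d1 d2
    exact ((d1.mul (hx i t x a0 a1 a2 a3)).add
      ((hasDerivAt_rpow_div a2 a).mul (hxx i t x a0 a1 a2 a3))).sub (d2.const_mul K)
  · intro i x a0 a1
    rcases a0.eq_or_lt with h | h
    · subst h
      simp only [Real.zero_rpow ha.ne', Real.zero_rpow hab.ne']
      linarith [hs0 t0 le_rfl h01]
    · rw [key _ _ _ h]
      exact mul_neg_of_pos_of_neg (Real.rpow_pos_of_pos h a) (by linarith [h0 i x h a1])
  · intro i t x a0 a1 a2 a3 _ e0 e1 e2 e3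
    have hp : 0 < x ^ a := Real.rpow_pos_of_pos a2 a
    have hm : x ^ a * x ^ (-a) = 1 := by rw [← Real.rpow_add a2]; simp
    have hq : x ^ (a + b) = x ^ a * x ^ b := Real.rpow_add a2 a b
    rw [key _ _ _ a2] at e0
    have g0 : G i t x = K * x ^ b + s t * x ^ (-a) := by
      have := (mul_eq_zero.1 e0).resolve_left hp.ne'
      linarith
    have hn : 0 < x ^ (-a) := Real.rpow_pos_of_pos a2 _
    have g1 : st t * x ^ (-a) ≤ Gt i t x := by
      have : st t * x ^ (-a) ≤ x ^ a * Gt i t x * x ^ (-a) :=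
        mul_le_mul_of_nonneg_right (by linarith) hn.le
      calc st t * x ^ (-a) ≤ x ^ a * Gt i t x * x ^ (-a) := this
        _ = Gt i t x * (x ^ a * x ^ (-a)) := by ring
        _ = Gt i t x := by rw [hm, mul_one]
    have g2 : x * Gx i t x = b * (K * x ^ b) - a * (s t * x ^ (-a)) := by
      rw [hq, g0] at e2
      have : x ^ a * (x * Gx i t x - (b * (K * x ^ b) - a * (s t * x ^ (-a)))) = 0 := by
        have hx0 := a2.ne'
        field_simp at e2
        linear_combination e2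
      have := (mul_eq_zero.1 this).resolve_left hp.ne'
      linarith
    refine hint i t x a0 a1 a2 a3 g0 g1 g2 ?_
    have hx0 := a2.ne'
    have e4 : x ^ a * (x ^ 2 * Gxx i t x -
        (b * (b - 1) * (K * x ^ b) + a * (a + 1) * (s t * x ^ (-a)))) =
        x ^ 2 * ((a * (a * x ^ a / x) * x - a * x ^ a) / x ^ 2 * G i t x +
      a * x ^ a / x * Gx i t x + (a * x ^ a / x * Gx i t x + x ^ a * Gxx i t x) -
      K * (((a + b) * ((a + b) * x ^ (a + b) / x) * x - (a + b) * x ^ (a + b)) / x ^ 2)) := by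
      rw [hq, g0]
      field_simp
      linear_combination (-2 * a) * g2
    have e5 : x ^ a * (x ^ 2 * Gxx i t x -
        (b * (b - 1) * (K * x ^ b) + a * (a + 1) * (s t * x ^ (-a)))) ≤ 0 := by
      rw [e4]; exact mul_nonpos_of_nonneg_of_nonpos (sq_nonneg x) e3
    have := (mul_nonpos_iff.1 e5).resolve_right (fun h => absurd h.1 (not_le.2 hp))
    linarith [this.2]
  · intro i t a0 a1 _ e0
    simp only [Real.zero_rpow ha.ne', Real.zero_rpow hab.ne'] at e0
    linarith [hs0 t a0.le a1]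
  · intro i t a0 a1 _ e0
    have h := hr0 t a0.le a1
    rw [key _ _ _ h] at e0
    have := (mul_eq_zero.1 e0).resolve_left (Real.rpow_pos_of_pos h a).ne'
    linarith [hright i t a0 a1]

end Crest.Agent.N207.S.I1
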