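import Crest.Agent.N207.S.I1.Bar

/-!
Row 207 (S0320), block I1 (c): the barrier `x^(3/4) + τ^(3/2) x^(-11/20)` for `z - z0`.
-/

set_option autoImplicit false

open Set

namespace Crest.Agent.N207.S.I1

open MP

variable {e t0 t1 xs T : ℝ} {w wt k kt : ℕ → ℝ → ℝ → ℝ}

/-- `z - z0` with `z = 1 - x k`, `z0 = 1 / (1 + 2 e)`. -/
noncomputable def ze (e x k0 : ℝ) : ℝ := 1 - x * k0 - 1 / (1 + 2 * e)

/-- The equation of `ze`, multiplied by `x`. -/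
theorem ze_eq {e x w0 w1 k0 k1 k2 : ℝ} (he : 0 ≤ e) (hw : w0 ≠ 0) :
    x * (-(x * rhsK e x w0 w1 k0 k1 k2)) =
      2 * e * (1 - x * k0) * (x ^ 2 * (-(2 * k1 + x * k2))) + x * (-(k0 + x * k1)) -
        e * (x * (-(k0 + x * k1))) ^ 2 - (1 - x * k0) * (1 + 2 * e) * ze e x k0 -
        2 * e * (1 - x * k0) ^ 2 * (x ^ 2 * w1 ^ 2 / w0 ^ 2 - 1) := by
  have : (1 + 2 * e) ≠ 0 := by positivity
  simp only [rhsK, ze]
  field_simp
  ring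

/-- The algebra at a touching point (both signs `σ = ±1`). -/
theorem alg_c {e z σ B1 B2 g g1 g2 S gt : ℝ} (he : 0 ≤ e) (he1 : e ≤ 1 / 100)
    (hσ : σ = 1 ∨ σ = -1) (z0 : 99 / 100 ≤ z) (z1 : z ≤ 101 / 100) (hB1 : 0 < B1) (hB2 : 0 < B2)
    (hg : |g| ≤ 3 / 100) (e0 : σ * g = B1 + B2) (e2 : σ * g1 = 3 / 4 * B1 - 11 / 20 * B2)
    (e3 : σ * g2 ≤ 3 / 4 * (3 / 4 - 1) * B1 + 11 / 20 * (11 / 20 + 1) * B2)
    (hS : e * |S| ≤ (B1 + B2) / 30)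
    (eq : gt = 2 * e * z * g2 + g1 - e * g1 ^ 2 - z * (1 + 2 * e) * g - 2 * e * z ^ 2 * S)
    (e1 : -(B1 / 10 + 3 / 4 * B2) ≤ σ * gt) : False := by
  have hσa : |σ| = 1 := by rcases hσ with h | h <;> simp [h]
  have hσ2 : σ ^ 2 = 1 := by rcases hσ with h | h <;> simp [h]
  have hσl : -1 ≤ σ := by rcases hσ with h | h <;> simp [h]
  have hB : B1 + B2 ≤ 3 / 100 := by
    have : σ * g ≤ |σ * g| := le_abs_self _
    rw [abs_mul, hσa, one_mul] at this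
    linarith
  have ez0 : 0 ≤ e * z := mul_nonneg he (by linarith)
  have ez1 : e * z ≤ 1 / 50 := by nlinarith
  have a1 : 2 * (e * z) * (σ * g2) ≤ 2 * (e * z) * B2 :=
    mul_le_mul_of_nonneg_left (by linarith) (by linarith)
  have a1' : 2 * (e * z) * B2 ≤ 1 / 25 * B2 :=
    mul_le_mul_of_nonneg_right (by linarith) hB2.le
  have a2 : g1 ^ 2 ≤ (B1 + B2) ^ 2 := by
    have : g1 ^ 2 = (σ * g1) ^ 2 := by rw [mul_pow, hσ2, one_mul]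
    rw [this, e2]
    exact sq_le_sq' (by linarith) (by linarith)
  have a3 : (B1 + B2) ^ 2 ≤ 3 / 100 * (B1 + B2) := by nlinarith
  have a4 : -(σ * (e * g1 ^ 2)) ≤ 1 / 100 * (B1 + B2) := by
    have h1 : 0 ≤ e * g1 ^ 2 := by positivity
    have h2 : e * g1 ^ 2 ≤ 1 / 100 * (3 / 100 * (B1 + B2)) :=
      mul_le_mul he1 (a2.trans a3) (sq_nonneg _) (by norm_num)
    nlinarith
  have a5 : 99 / 100 * (B1 + B2) ≤ z * (1 + 2 * e) * (B1 + B2) :=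
    mul_le_mul_of_nonneg_right (by nlinarith) (by linarith)
  have a6 : -(σ * (2 * e * z ^ 2 * S)) ≤ 7 / 100 * (B1 + B2) := by
    have h1 : -(σ * S) ≤ |S| := by
      have := neg_abs_le (σ * S)
      rw [abs_mul, hσa, one_mul] at this
      linarith
    have h2 : e * -(σ * S) ≤ (B1 + B2) / 30 := (mul_le_mul_of_nonneg_left h1 he).trans hS
    have h3 : 2 * z ^ 2 ≤ 21 / 10 := by nlinarith
    have h4 : 2 * z ^ 2 * (e * -(σ * S)) ≤ 2 * z ^ 2 * ((B1 + B2) / 30) :=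
      mul_le_mul_of_nonneg_left h2 (by positivity)
    have h5 : 2 * z ^ 2 * ((B1 + B2) / 30) ≤ 21 / 10 * ((B1 + B2) / 30) :=
      mul_le_mul_of_nonneg_right h3 (by linarith)
    nlinarith
  have a7 : σ * gt = 2 * (e * z) * (σ * g2) + σ * g1 - σ * (e * g1 ^ 2) -
      z * (1 + 2 * e) * (σ * g) - σ * (2 * e * z ^ 2 * S) := by rw [eq]; ring
  rw [a7, e0, e2] at e1
  linarith

/-- The time derivative of the barrier is absorbed. -/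
theorem time_term {K τ x : ℝ} (hK : 0 ≤ K) (hK2 : K ≤ 2) (hτ : 0 < τ) (hx : 0 < x)
    (hx1 : x ≤ 1 / 10 ^ 10) :
    x * (K * (3 / 2 * τ ^ (3 / 2 : ℝ) / τ) * x ^ (-(11 / 20 : ℝ))) ≤
      x ^ (3 / 4 : ℝ) / 10 + 3 / 4 * (K * τ ^ (3 / 2 : ℝ) * x ^ (-(11 / 20 : ℝ))) := by
  have p1 : 0 < x ^ (3 / 4 : ℝ) := Real.rpow_pos_of_pos hx _
  have p2 : 0 < x ^ (-(11 / 20 : ℝ)) := Real.rpow_pos_of_pos hx _
  have p3 : 0 < τ ^ (3 / 2 : ℝ) := Real.rpow_pos_of_pos hτ _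
  have p4 : 0 ≤ K * τ ^ (3 / 2 : ℝ) * x ^ (-(11 / 20 : ℝ)) := by positivity
  have e1 : x * (K * (3 / 2 * τ ^ (3 / 2 : ℝ) / τ) * x ^ (-(11 / 20 : ℝ))) =
      3 / 2 * (x / τ) * (K * τ ^ (3 / 2 : ℝ) * x ^ (-(11 / 20 : ℝ))) := by
    field_simp
  by_cases hc : x ≤ τ / 2
  · have : x / τ ≤ 1 / 2 := by rw [div_le_iff₀ hτ]; linarith
    rw [e1]
    nlinarith [mul_le_mul_of_nonneg_right this p4]
  · have hc' : τ ≤ 4 * x := by linarith [not_le.1 hc]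
    have f1 : τ ^ (3 / 2 : ℝ) / τ = τ ^ (1 / 2 : ℝ) := by
      rw [← Real.rpow_sub_one hτ.ne']; norm_num
    have f2 : τ ^ (1 / 2 : ℝ) ≤ 2 * x ^ (1 / 2 : ℝ) := by
      calc τ ^ (1 / 2 : ℝ) ≤ (4 * x) ^ (1 / 2 : ℝ) :=
            Real.rpow_le_rpow hτ.le hc' (by norm_num)
        _ = 2 * x ^ (1 / 2 : ℝ) := by
            rw [Real.mul_rpow (by norm_num) hx.le]
            congr 1
            rw [show (4 : ℝ) = 2 ^ (2 : ℝ) by norm_num, ← Real.rpow_mul (by norm_num)]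
            norm_num
    have f3 : x * x ^ (1 / 2 : ℝ) * x ^ (-(11 / 20 : ℝ)) = x ^ (3 / 4 : ℝ) * x ^ (1 / 5 : ℝ) := by
      rw [← Real.rpow_add hx, ← Real.rpow_one_add' hx.le (by norm_num), ← Real.rpow_add hx]
      norm_num
    have f4 : x ^ (1 / 5 : ℝ) ≤ 1 / 100 := by
      calc x ^ (1 / 5 : ℝ) ≤ ((1 / 100 : ℝ) ^ (5 : ℝ)) ^ (1 / 5 : ℝ) :=
            Real.rpow_le_rpow hx.le (by norm_num at hx1 ⊢; linarith) (by norm_num)
        _ = 1 / 100 := by rw [← Real.rpow_mul (by norm_num)]; norm_num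
    have f5 : x * (K * (3 / 2 * τ ^ (3 / 2 : ℝ) / τ) * x ^ (-(11 / 20 : ℝ))) =
        3 / 2 * (K * τ ^ (1 / 2 : ℝ)) * (x * x ^ (-(11 / 20 : ℝ))) := by
      rw [← f1]; ring
    have f6 : K * τ ^ (1 / 2 : ℝ) ≤ 2 * (2 * x ^ (1 / 2 : ℝ)) :=
      mul_le_mul hK2 f2 (Real.rpow_nonneg hτ.le _) (by norm_num)
    have f7 : 3 / 2 * (K * τ ^ (1 / 2 : ℝ)) * (x * x ^ (-(11 / 20 : ℝ))) ≤
        3 / 2 * (2 * (2 * x ^ (1 / 2 : ℝ))) * (x * x ^ (-(11 / 20 : ℝ))) :=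
      mul_le_mul_of_nonneg_right (by linarith) (by positivity)
    have f8 : x ^ (3 / 4 : ℝ) * x ^ (1 / 5 : ℝ) ≤ x ^ (3 / 4 : ℝ) * (1 / 100) :=
      mul_le_mul_of_nonneg_left f4 p1.le
    rw [f5]
    nlinarith

theorem hasDeriv_tau32 {K T t : ℝ} (h : t < T) :
    HasDerivAt (fun s => K * (T - s) ^ (3 / 2 : ℝ))
      (-(K * (3 / 2 * (T - t) ^ (3 / 2 : ℝ) / (T - t)))) t := by
  have h1 := (hasDerivAt_rpow_div (sub_pos.2 h) (3 / 2 : ℝ)).comp t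
    ((hasDerivAt_id t).const_sub T)
  refine (h1.const_mul K).congr_deriv ?_
  ring

/-- (c), strict form with a factor `1 ≤ K ≤ 2`. -/
theorem zeBar_lt (h : XSol e t0 t1 xs w wt k kt) (he : 0 ≤ e) (he1 : e ≤ 1 / 100) (h01 : t0 ≤ t1)
    (hT : t1 < T) (hxs0 : 0 < xs) (hxs : xs ≤ 1 / 10 ^ 10) {K : ℝ} (hK : 1 ≤ K) (hK2 : K ≤ 2)
    (hk : ∀ t x, t ∈ Icc t0 t1 → x ∈ Icc 0 xs → |x * k 0 t x| ≤ 1 / 100)
    (hS : ∀ t x, t ∈ Icc t0 t1 → 0 < x → x ≤ xs →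
      e * |x ^ 2 * w 1 t x ^ 2 / w 0 t x ^ 2 - 1| ≤
        (x ^ (3 / 4 : ℝ) + (T - t) ^ (3 / 2 : ℝ) * x ^ (-(11 / 20 : ℝ))) / 30)
    (h0 : ∀ x, 0 < x → x ≤ xs → |ze e x (k 0 t0 x)| <
      x ^ (3 / 4 : ℝ) + K * (T - t0) ^ (3 / 2 : ℝ) * x ^ (-(11 / 20 : ℝ)))
    (hr : ∀ t, t ∈ Icc t0 t1 → |ze e xs (k 0 t xs)| ≤ xs ^ (3 / 4 : ℝ)) :
    ∀ t x, t ∈ Icc t0 t1 → 0 < x → x ≤ xs → |ze e x (k 0 t x)| <
      x ^ (3 / 4 : ℝ) + K * (T - t) ^ (3 / 2 : ℝ) * x ^ (-(11 / 20 : ℝ)) := by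
  let σ : Bool → ℝ := fun b => if b then 1 else -1
  have hσ : ∀ b, σ b = 1 ∨ σ b = -1 := fun b => by cases b <;> simp [σ]
  have hσa : ∀ b g, σ b * g ≤ |g| := fun b g => by
    rcases hσ b with h | h <;> rw [h]
    · linarith [le_abs_self g]
    · linarith [neg_abs_le g]
  have hs0 : ∀ t, t ≤ t1 → 0 < K * (T - t) ^ (3 / 2 : ℝ) := fun t b =>
    mul_pos (by linarith) (Real.rpow_pos_of_pos (by linarith) _)
  have hsub : Reg (fun _ => 0) (fun _ => xs) t0 t1 ⊆ Icc t0 t1 ×ˢ Icc 0 xs :=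
    fun p hp => ⟨⟨hp.1, hp.2.1⟩, hp.2.2⟩
  have main := mp_sing (ι := Bool) (r := fun _ => xs) (s := fun t => K * (T - t) ^ (3 / 2 : ℝ))
    (st := fun t => -(K * (3 / 2 * (T - t) ^ (3 / 2 : ℝ) / (T - t)))) (a := 11 / 20)
    (b := 3 / 4) (K := 1) h01 (by norm_num) (by norm_num) continuousOn_const (fun _ _ _ => hxs0)
    (continuousOn_const.mul ((continuousOn_const.sub continuousOn_id).rpow_const
      fun _ _ => Or.inr (by norm_num))) (fun t _ b => hs0 t b)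
    (fun t _ b => (hasDeriv_tau32 (by linarith)).hasDerivWithinAt)
    (fun i t x => σ i * ze e x (k 0 t x)) (fun i t x => σ i * -(x * kt 0 t x))
    (fun i t x => σ i * -(k 0 t x + x * k 1 t x))
    (fun i t x => σ i * -(2 * k 1 t x + x * k 2 t x)) ?_ ?_ ?_ ?_ ?_ ?_ ?_
  · intro t x ht a b
    have h1 := main true t x ht.1 ht.2 a b
    have h2 := main false t x ht.1 ht.2 a b
    simp only [σ, if_true, Bool.false_eq_true, if_false] at h1 h2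
    rw [abs_lt]; constructor <;> linarith
  · intro i
    refine continuousOn_const.mul ?_
    exact (continuousOn_const.sub (continuousOn_snd.mul ((h.jk.cu 0).mono hsub))).sub
      continuousOn_const
  · intro i t x a b c d
    exact ((((jet_dt h.jk 0 a b c.le d.le).const_mul x).const_sub 1).sub_const _).const_mul _
  · intro i t x a b c d
    have := ((((hasDerivAt_id x).mul (jet_dx h.jk 0 a.le b c d)).const_sub 1).sub_const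
      (1 / (1 + 2 * e))).const_mul (σ i)
    refine this.congr_deriv ?_
    simp only [id]; ring
  · intro i t x a b c d
    have := ((jet_dx h.jk 0 a.le b c d).add
      ((hasDerivAt_id x).mul (jet_dx h.jk 1 a.le b c d))).neg.const_mul (σ i)
    refine this.congr_deriv ?_
    simp only [id]; ring
  · intro i x a b
    linarith [hσa i (ze e x (k 0 t0 x)), h0 x a b]
  · intro i t x a b u d e0 e1 e2 e3
    have hx : x ∈ Icc 0 xs := ⟨u.le, d.le⟩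
    have hw := h.pos t x ⟨a.le, b⟩ hx
    have hk' := abs_le.1 (hk t x ⟨a.le, b⟩ hx)
    have hτ : 0 < T - t := by linarith
    have p1 : 0 < x ^ (3 / 4 : ℝ) := Real.rpow_pos_of_pos u _
    have p2 : 0 < x ^ (-(11 / 20 : ℝ)) := Real.rpow_pos_of_pos u _
    have p3 : 0 < (T - t) ^ (3 / 2 : ℝ) := Real.rpow_pos_of_pos hτ _
    have tt := time_term (K := K) (by linarith) hK2 hτ u (d.le.trans hxs)
    have hz0 : 1 - 2 * e ≤ 1 / (1 + 2 * e) := by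
      rw [le_div_iff₀ (by positivity)]; nlinarith
    have hz1 : 1 / (1 + 2 * e) ≤ 1 := by
      rw [div_le_one (by positivity)]; linarith
    have hg : |ze e x (k 0 t x)| ≤ 3 / 100 := by
      rw [ze, abs_le]; constructor <;> linarith
    have hS' := hS t x ⟨a.le, b⟩ u d.le
    have hK' : (T - t) ^ (3 / 2 : ℝ) * x ^ (-(11 / 20 : ℝ)) ≤
        K * (T - t) ^ (3 / 2 : ℝ) * x ^ (-(11 / 20 : ℝ)) := by
      rw [mul_assoc]; exact le_mul_of_one_le_left (by positivity) hK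
    have e1' := mul_le_mul_of_nonneg_left e1 u.le
    rw [h.eqK t x ⟨a.le, b⟩ hx] at e1'
    rw [one_mul] at e0 e2 e3
    refine alg_c (z := 1 - x * k 0 t x) (g := ze e x (k 0 t x))
      (g1 := x * -(k 0 t x + x * k 1 t x)) (g2 := x ^ 2 * -(2 * k 1 t x + x * k 2 t x))
      (B1 := x ^ (3 / 4 : ℝ)) (B2 := K * (T - t) ^ (3 / 2 : ℝ) * x ^ (-(11 / 20 : ℝ)))
      he he1 (hσ i) (by linarith) (by linarith) p1 (mul_pos (hs0 t b) p2) hg e0 (by linarith)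
      (by linarith) (by linarith) (ze_eq (w1 := w 1 t x) he hw.ne') (by linarith)
  · intro i t a b
    have := mul_pos (hs0 t b) (Real.rpow_pos_of_pos hxs0 (-(11 / 20 : ℝ)))
    linarith [hσa i (ze e xs (k 0 t xs)), hr t ⟨a.le, b⟩]

/-- (c): `|z - z0| ≤ x^(3/4) + τ^(3/2) x^(-11/20)` on `0 < x ≤ xs`. -/
theorem zeBar (h : XSol e t0 t1 xs w wt k kt) (he : 0 ≤ e) (he1 : e ≤ 1 / 100)
    (hT : t1 < T) (hxs0 : 0 < xs) (hxs : xs ≤ 1 / 10 ^ 10)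
    (hk : ∀ t x, t ∈ Icc t0 t1 → x ∈ Icc 0 xs → |x * k 0 t x| ≤ 1 / 100)
    (hS : ∀ t x, t ∈ Icc t0 t1 → 0 < x → x ≤ xs →
      e * |x ^ 2 * w 1 t x ^ 2 / w 0 t x ^ 2 - 1| ≤
        (x ^ (3 / 4 : ℝ) + (T - t) ^ (3 / 2 : ℝ) * x ^ (-(11 / 20 : ℝ))) / 30)
    (h0 : ∀ x, 0 < x → x ≤ xs → |ze e x (k 0 t0 x)| ≤
      x ^ (3 / 4 : ℝ) + (T - t0) ^ (3 / 2 : ℝ) * x ^ (-(11 / 20 : ℝ)))
    (hr : ∀ t, t ∈ Icc t0 t1 → |ze e xs (k 0 t xs)| ≤ xs ^ (3 / 4 : ℝ)) :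
    ∀ t x, t ∈ Icc t0 t1 → 0 < x → x ≤ xs → |ze e x (k 0 t x)| ≤
      x ^ (3 / 4 : ℝ) + (T - t) ^ (3 / 2 : ℝ) * x ^ (-(11 / 20 : ℝ)) := by
  intro t x ht a b
  have hτ : ∀ s u, s ≤ t1 → 0 < u → 0 < (T - s) ^ (3 / 2 : ℝ) * u ^ (-(11 / 20 : ℝ)) :=
    fun s u hs hu => mul_pos (Real.rpow_pos_of_pos (by linarith) _) (Real.rpow_pos_of_pos hu _)
  rw [← sub_le_iff_le_add', ← one_mul (_ * _), ← div_le_iff₀ (hτ t x ht.2 a)]
  refine le_of_forall_gt_imp_ge_of_dense fun K' hK' => ?_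
  refine le_trans ?_ (min_le_left K' 2)
  have hm : 1 < min K' 2 := lt_min hK' (by norm_num)
  rw [div_le_iff₀ (hτ t x ht.2 a), ← mul_assoc, sub_le_iff_le_add']
  refine (zeBar_lt h he he1 (ht.1.trans ht.2) hT hxs0 hxs hm.le (min_le_right _ _) hk hS ?_ hr
    t x ht a b).le
  intro u c d
  refine (h0 u c d).trans_lt ?_
  rw [mul_assoc]
  linarith [mul_lt_mul_of_pos_right hm (hτ t0 u (ht.1.trans ht.2) c)]

end Crest.Agent.N207.S.I1
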